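import Mathlib
import Vale.Agent.P087.Assembly
import Vale.Agent.P087.Freeness
import Vale.Agent.P087.GNS

/-!
# P087: microstates free entropy can be strictly below nonmicrostates free entropy

A tuple with finite microstates free entropy `χ` and `χ < χ*`.  The law `m` is realised by
bounded self-adjoint operators generating a von Neumann algebra with a tracial vector state whose
vector is separating, i.e. a faithful normal tracial state.  The last three conjuncts state
that `mixedMoment m`, through which `χ*` is defined, is the joint law of the tuple and a free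
family of semicirculars free from it.
-/

namespace Vale.Agent.Results.P087.MicrostatesBelowNonmicrostates

open MeasureTheory VAgent.P087
open scoped EReal

theorem result :
    ∃ (N : ℕ) (m : List (Fin N) → ℂ), 1 ≤ N ∧ IsLaw m ∧
      Realised m ∧
      ⊥ < freeEntropy m ∧
      (∀ t : ℝ, 0 < t → fisher (addSemicircular m fun _ => t) < ⊤) ∧
      IntegrableOn (starIntegrand m) (Set.Ioi 0) ∧
      freeEntropy m < ((freeEntropyStar m : ℝ) : EReal) ∧
      (∀ w, mixedMoment m (w.map Sum.inl) = m w) ∧
      (∀ j k, mixedMoment m (List.replicate (2 * k) (Sum.inr j)) = catalan k ∧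
        mixedMoment m (List.replicate (2 * k + 1) (Sum.inr j)) = 0) ∧
      ∀ L : List (Option (Fin N) × (List (Fin N ⊕ Fin N) →₀ ℂ)), L ≠ [] →
        L.IsChain (fun a b => a.1 ≠ b.1) →
        (∀ b ∈ L, ∀ w ∈ b.2.support, ∀ a ∈ w, colour a = b.1) →
        (∀ b ∈ L, b.2.sum (fun w c => c * mixedMoment m w) = 0) →
        evalProd (L.map Prod.snd) (mixedMoment m) = 0 := by
  obtain ⟨N, m, hN, hm, hbot, hfin, hint, hlt⟩ := exists_freeEntropy_lt_freeEntropyStar
  obtain ⟨h1, h2, h3⟩ := mixedMoment_free hm
  exact ⟨N, m, hN, hm, hm.realised, hbot, hfin, hint, hlt, h1, h2, h3⟩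

end Vale.Agent.Results.P087.MicrostatesBelowNonmicrostates
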